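import Vale.Agent.P354CP.Defs

/-!
The distance to Kerr inside the hierarchy. Exact statements.
-/

open Filter

noncomputable section

namespace Vale.Agent.P354CN

open Vale.Agent.P354XG Vale.Agent.P354XD Vale.Agent.P354XI Vale.Agent.P354XR Vale.Agent.P354Z
open Vale.Agent.P354SI Vale.Agent.P354CO
open Vale.Agent.P354YH (sm)

/-- The distance to Kerr above the bottom, on r ≤ R, t ≤ T. -/
def Ga (c : Cs) (E : Est) (Q R T D : ℝ) : Prop :=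
  (c.B * (E.e0 + |E.M - c.M| + |E.a - c.a|)) ^ 2 ≤ D ∧ ∃ b : ℕ → ℝ, (∀ j, 0 ≤ b j) ∧
    (∀ k, sm Q k b ≤ D) ∧ ∀ x ∈ E.O1, An x → Est.Ab c x → x.2.1 ≤ R → x.1 ≤ T → ∀ i,
      q2 (lt (hp _) (E.p1 c)) x c.N0 (E.d1 c i) ≤ b ⌊x.1 - c.t1⌋₊ ∧ (Est.Fa c x →
        q2 (lt (hp _) (E.p2 c)) x c.N0 (E.d2 c i) ≤ b ⌊x.1 - c.t1⌋₊)

variable {c : Cs} {E : Est} {Q R T D R' T' D' : ℝ} {x : E6}

theorem ga_of (h : Gi c E Q R T D) : Ga c E Q R T D :=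
  let ⟨a, b, b1, b2, b3⟩ := h
  ⟨a, b, b1, b2, fun x hx a _ => b3 x hx a⟩

theorem Ga.mono (h : Ga c E Q R T D) (hR : R' ≤ R) (hT : T' ≤ T) (e : D ≤ D') :
    Ga c E Q R' T' D' :=
  let ⟨a, b, b1, b2, b3⟩ := h
  ⟨a.trans e, b, b1, fun k => (b2 k).trans e,
    fun x hx a a' r t => b3 x hx a a' (r.trans hR) (t.trans hT)⟩

/-- The far part lies above the bottom. -/
theorem ab_fa (o : c.Ok) (h : Est.Fa c x) : Est.Ab c x := by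
  have := h.2
  unfold uu at this
  unfold Est.Ab
  rw [o.btf _ h.1]
  linarith

/-- GIK: the constant does not depend on the variable part of the constants. -/
def GIK : Prop := ∀ P : Pr, P.Ok → P.c.L0 + 6 ≤ P.g → ∀ (ρ : ℝ) (w : ℕ), ∃ R0 C, 0 ≤ C ∧
  ∀ᶠ σ in F0 P P.g, ∀ k : ℕ, k ≤ σ.K →
    Ga σ.c σ.E P.Q ρ (P.c.t1 + k + w) (C * (σ.D + sm P.Q k (fy P P.g R0 σ)))

end Vale.Agent.P354CN
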