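import Vale.Agent.P354CN.GDefs
import Vale.Agent.P354CO.Gi
import Vale.Agent.P354CV.Sob
import Vale.Agent.P354SI.Sl

/-! The distance to Kerr inside the hierarchy. -/

open scoped ENNReal
open Set Finset Filter

noncomputable section

namespace Vale.Agent.P354CN

open Vale.Agent.P354XG Vale.Agent.P354XD Vale.Agent.P354XI Vale.Agent.P354XR Vale.Agent.P354Z
open Vale.Agent.P354CV Vale.Agent.P354SI Vale.Agent.P354CO
open Vale.Agent.P354YH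

/-- The suprema from the integrals; the constant depends on the mass, the radii and the order. -/
theorem sup_of (M0 : ℝ) {r1 : ℝ} (ρ : ℝ) (n : ℕ) (p2 : 0 < r1) : ∃ C ≥ 1, ∀ c : Cs, ∃ δ > 0,
    c.Ok → c.M = M0 → c.r1 = r1 → c.R1 + 3 ≤ ρ → ρ + 2 ≤ c.Rs → n ≤ c.K + 2 → ∀ E L ε,
      Bo c E L ε → c.L0 ≤ L → ε ≤ δ → ∀ Q, 0 ≤ Q → Q ≤ 3 → ∀ T D, E.e0 ^ 2 ≤ D →
      Sl c Q (Yl c E (n + 6) (ρ + 1)) T D → ∃ m : ℕ → ℝ, (∀ i, 0 ≤ m i) ∧
        (∀ k, sm Q k m ≤ C * D) ∧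
        ∀ i : ℕ, c.t1 + i + 2 ≤ T → Sup E (E.eta n) ρ (c.t1 + i) (m i) := by
  obtain ⟨C, δ, hC, hδ, hS⟩ := sobc M0 r1 ρ 1 n p2 one_pos
  refine ⟨1 + 24 * C, by linarith, fun c => ?_⟩
  by_cases k : c.Ok ∧ c.R1 + 3 ≤ ρ + 1
  swap
  · exact ⟨1, one_pos, fun o _ _ h => (k ⟨o, by linarith⟩).elim⟩
  obtain ⟨e, he, d⟩ := d1s k.1 k.2 hδ
  refine ⟨e, he, fun o e1 e2 hρ hs hK E L ε b h0 hε Q q0 q3 T D hD h => ?_⟩
  have D0 := (sq_nonneg _).trans hD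
  obtain ⟨u, u0, u1, u2⟩ := h.real D0
  have v0 : ∀ j, 0 ≤ C * (u j + u (j + 1) + u (j + 2)) := fun j =>
    mul_nonneg hC.le (add_nonneg (add_nonneg (u0 _) (u0 _)) (u0 _))
  refine ⟨fun i => Nat.casesOn i (E.e0 ^ 2) fun j => C * (u j + u (j + 1) + u (j + 2)),
    fun i => by cases i; exacts [sq_nonneg _, v0 _], fun k => (sm_cons (D := C * (3 * D)) q0 q3 v0
      (fun k => ?_) k).trans (by linarith), fun i hT x hx n1 r t1 t2 => ?_⟩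
  · rw [sm_mul]
    exact mul_le_mul_of_nonneg_left (sm_three q0 u0 u1 k) hC.le
  cases i with
  | zero => exact (eta_mono hK x).trans (b.is.near.ini x hx ⟨by linarith, by linarith⟩
      (by push_cast at t2; linarith [o.B]))
  | succ j =>
    push_cast at t1 t2 hT
    have j0 := Nat.cast_nonneg (α := ℝ) j
    have a := hS c E e1 e2 (ok_pos o).1 b.is.shape b.is.eqs hs x hx n1 r fun y hy a dy => by
      obtain ⟨a1, -, a3⟩ := dist_t dy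
      exact ⟨ab_of o b.is.shape hy (by linarith),
        fun i => d E L ε b h0 hε y hy a (by linarith) (by linarith) _⟩
    refine (ENNReal.ofReal_le_ofReal_iff (v0 j)).1 (a.trans ?_)
    rw [ENNReal.ofReal_mul hC.le]
    refine mul_le_mul_right (cover (Z := Zl c (ρ + 1)) (ok_B o) _ u0 u2 fun y hy _ s => ?_) _
    obtain ⟨a1, a2, a3⟩ := dist_t s.2.2
    exact ⟨by linarith, by linarith, by linarith, fun a b h1 h2 => ⟨s.1, by linarith, h1, h2⟩⟩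

/-- The parameters. -/
theorem par_of (C1 : ℝ) (w : ℕ) : ∃ C ≥ 0, ∀ (c : Cs) (E : Est) L ε D, c.Ok → c.C c.R1 = C1 →
    Bo c E L ε → c.L0 ≤ L → c.L0 ≤ c.K + 2 → |c.bt c.R1 - c.t1| + c.c0 ≤ w → c.B ^ 2 * ε ≤ 1 →
    (c.B * E.e0) ^ 2 ≤ D → ε ^ 3 ≤ D → (c.B * (E.e0 + |E.M - c.M| + |E.a - c.a|)) ^ 2 ≤ C * D := by
  obtain ⟨A, hA, tA⟩ := tl_pt (r := 7 / 5) (by norm_num)
  refine ⟨2 * (1 + C1 * (1 + 2 * w)) ^ 2 + 2 * (2 * C1 * A) ^ 2, by positivity,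
    fun c E L ε D o e b hL hK hw hB d1 d3 => ?_⟩
  have B1 := o.B
  have e0 := b.is.near.e0
  have p0 := b.pos
  have c1 := e ▸ o.C c.R1
  have e1 : E.e0 ≤ 1 := b.e0.trans
    ((le_mul_of_one_le_left p0.le (one_le_pow₀ B1)).trans hB)
  have ini : Ini E (E.eta c.L0) (c.R1 + 4) c.t1 E.e0 := fun y hy n _ t =>
    (eta_mono hK y).trans (b.is.near.ini y hy ⟨by linarith, by linarith⟩ (by linarith))
  have T := b.is.near.par _ (tail_of (j := 0) (w := w) ini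
    (fun i => mul_nonneg (sq_nonneg ε) (wt_pos _ _).le)
    (dec_sup (by linarith [o.t1]) (by norm_num) (b.dec0 hL) _)
    (tA (by norm_num) (sq_nonneg ε) (wt_dec ε (7 / 5))) (by simpa using hw))
  rw [Nat.zero_sub, wt_zero, e] at T
  have a : (if 0 < w then w * E.e0 ^ 2 else 0 : ℝ) ≤ w * E.e0 := by
    split_ifs
    exacts [mul_le_mul_of_nonneg_left (by nlinarith) (Nat.cast_nonneg w), by positivity]
  have s4 := mul_le_mul_of_nonneg_left a (show 0 ≤ 2 * C1 by linarith)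
  have s5 := pow_le_pow_left₀ (by positivity) (mul_le_mul_of_nonneg_left (show E.e0 +
    |E.M - c.M| + |E.a - c.a| ≤ (1 + C1 * (1 + 2 * w)) * E.e0 + 2 * C1 * A * ε ^ 2 by linarith)
    (zero_le_one.trans B1)) 2
  have s6 : (c.B * ε ^ 2) ^ 2 ≤ D := le_trans (by
    linarith [mul_le_mul_of_nonneg_right hB (pow_pos p0 3).le]) d3
  have s7 := mul_le_mul_of_nonneg_left d1 (sq_nonneg (1 + C1 * (1 + 2 * w)))
  have s8 := mul_le_mul_of_nonneg_left s6 (sq_nonneg (2 * C1 * A))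
  refine s5.trans ?_
  generalize 1 + C1 * (1 + 2 * w) = u at *
  generalize 2 * C1 * A = v at *
  linarith [sq_nonneg (u * (c.B * E.e0) - v * (c.B * ε ^ 2))]

theorem gik (hL : P354CP.LOC) : GIK := by
  intro P hP hg ρ0 w0
  rcases isEmpty_or_nonempty (St P) with em | ⟨⟨σ0⟩⟩
  · exact ⟨0, 0, le_rfl, Eventually.of_forall fun σ => em.elim σ⟩
  obtain ⟨ρ, r0, r1⟩ : ∃ ρ, ρ0 ≤ ρ ∧ P.c.R1 + 3 ≤ ρ := ⟨_, le_max_left _ _, le_max_right _ _⟩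
  obtain ⟨W, hW⟩ := (isCompact_Icc (a := P.c.r1) (b := ρ)).exists_bound_of_continuousOn
    (show ContDiff ℝ _ P.c.bt from σ0.ok.bts).continuous.continuousOn
  obtain ⟨w, hw⟩ := exists_nat_ge (|W| + P.c.t1 + P.c.c0 + 1 + |P.c.bt P.c.R1 - P.c.t1|)
  obtain ⟨Cs, cs, hS⟩ := sup_of P.c.M (ρ + 1) P.c.L0 (ok_pos σ0.ok).2
  choose δ δ0 hS using hS
  obtain ⟨Cp, cp, hp⟩ := par_of (P.c.C P.c.R1) w
  obtain ⟨R0, Cl, cl, hl⟩ := hL P hP P.g (ρ + 1 + 1) (w0 + w + 2) (by omega)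
  have l0 := Lm_nn w
  have w3 := wt_pos 3 w
  have z1 : 0 ≤ P.c.C ρ ^ 2 * (Lm w * 2 ^ (w + 11) * (1 + Cs * (1 + Cl)) +
    8 * ((w + 1) * wt 3 w)) := by positivity
  refine ⟨R0, Cp + P.c.C ρ ^ 2 * (Lm w * 2 ^ (w + 11) * (1 + Cs * (1 + Cl)) +
    8 * ((w + 1) * wt 3 w)), by positivity, ?_⟩
  filter_upwards [hl, ev_c P.g δ0, ev_c P.g (e := fun c => (c.B ^ 2 + 1)⁻¹) fun _ => by positivity,
    ev_R P.g (ρ + 3), ev_LK P.g] with σ hl e1 e2 e3 e4 k hk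
  have o : σ.c.Ok := σ.ok
  have b : Bo σ.c σ.E σ.L σ.eps := ⟨σ.is, (show P.c.s0 = 7 / 5 from o.s0) ▸ σ.dec, σ.e1, σ.e0⟩
  have y0 := sm_nn P.Q k (fy_nn P.g R0 σ)
  have B1 : 1 ≤ σ.B := o.B
  have t2 : 2 ≤ P.c.t1 := o.t1
  have c1 : 1 ≤ P.c.c0 := o.c0
  have e0 := σ.is.near.e0
  have p0 := σ.e0
  have hB : σ.B ^ 2 * σ.eps + σ.eps ≤ 1 := by
    have := (le_inv_comm₀ p0 (by positivity)).1 e2.1
    have := mul_le_mul_of_nonneg_right this p0.le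
    rw [inv_mul_cancel₀ p0.ne'] at this
    exact le_trans (le_of_eq (by simp only [St.c, Pr.cs]; ring)) this
  have hD : σ.E.e0 ^ 2 ≤ σ.D := le_trans (pow_le_pow_left₀ e0 (le_mul_of_one_le_left e0 B1) 2) σ.dB
  have D0 := (sq_nonneg _).trans hD
  have K2 : P.c.L0 ≤ σ.Kc + 2 := by omega
  have L2 : P.c.L0 ≤ σ.L := by omega
  have ab := abs_nonneg (P.c.bt P.c.R1 - P.c.t1)
  have aW := le_abs_self W
  have aW0 := abs_nonneg W
  replace hl := hl k hk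
  generalize sm P.Q k (fy P P.g R0 σ) = y at *
  obtain ⟨m, m0, m1, m2⟩ := hS σ.c o rfl rfl (show P.c.R1 + 3 ≤ _ by linarith)
    (by linarith [o.Rs, o.R2, o.R1, (ok_pos o).1, show ρ + 3 ≤ σ.c.R2 from e3]) K2 _ _ _ b L2 e1.1
    P.Q hP.Q0 hP.Q3 _ ((1 + Cl) * (σ.D + y)) (by nlinarith)
    (hl.mono (by nlinarith) fun _ _ => Yl_mono hg le_rfl le_rfl le_rfl)
  refine ⟨(hp σ.c _ _ _ _ o rfl b L2 K2 (show |P.c.bt P.c.R1 - P.c.t1| + P.c.c0 ≤ _ by linarith)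
    (show σ.B ^ 2 * _ ≤ _ by linarith) σ.dB σ.d3).trans (by nlinarith),
    fun j => P.c.C ρ ^ 2 * bb σ.E.e0 m σ.Qf w j, fun j => mul_nonneg (sq_nonneg _) (bb_nn m0),
    fun l => ?_, fun x hx a a' r t i => ?_⟩
  · rw [sm_mul]
    have b1 := bb_sum (e := σ.E.e0) (Q := σ.Qf) (w := w) hP.Q0 hP.Q3 m0 l
    have b2 := (sm_back hP.Q0 (fun j => sq_nonneg (σ.Qf j)) σ.dQ w l).trans (mul_le_mul
      (mul_le_mul_of_nonneg_left (wt_le_wt (j := w) hP.Q3) (by positivity))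
      (le_add_of_nonneg_right y0) D0 (by positivity))
    have b3 := mul_le_mul_of_nonneg_left (add_le_add (hD.trans (le_add_of_nonneg_right y0))
      (m1 (l + w))) (show 0 ≤ Lm w * 2 ^ (w + 11) by positivity)
    have b4 := mul_le_mul_of_nonneg_left (show sm P.Q l (bb σ.E.e0 m σ.Qf w) ≤
      (Lm w * 2 ^ (w + 11) * (1 + Cs * (1 + Cl)) + 8 * ((w + 1) * wt 3 w)) * (σ.D + y) by
        linarith) (sq_nonneg (P.c.C ρ))
    linarith [mul_nonneg cp (add_nonneg D0 y0)]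
  · have hb := (abs_le.1 (hW x.2.1 ⟨(σ.is.shape.rad1 x hx).1, r.trans r0⟩)).1
    have a2 : P.c.bt x.2.1 ≤ x.1 := a'
    have hj : |x.1 - P.c.t1 - ⌊x.1 - P.c.t1⌋₊| + P.c.c0 ≤ w ∧ ⌊x.1 - P.c.t1⌋₊ ≤ k + w0 := by
      refine ⟨?_, Nat.floor_le_of_le (by push_cast; linarith)⟩
      rcases le_total P.c.t1 x.1 with h | h
      · linarith [fl_near (sub_nonneg.2 h)]
      · rw [Nat.floor_of_nonpos (sub_nonpos.2 h), Nat.cast_zero, sub_zero,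
          abs_of_nonpos (sub_nonpos.2 h)]
        linarith
    refine mem (c := σ.c) (show 0 ≤ P.c.t1 by linarith) (show 0 ≤ P.c.c0 by linarith) σ.is.near r1
      le_rfl (by nlinarith [σ.e1]) (fun y hy n _ t => (eta_mono K2 y).trans (b.is.near.ini y hy
        ⟨by linarith, by linarith⟩ (by linarith [o.B]))) m0 σ.nt0
      (fun i hi => m2 i ?_) σ.sup σ.tl hx a (r.trans r0) hj.1 i
    have : (i : ℝ) ≤ k + w0 + w := by exact_mod_cast hi.trans (Nat.add_le_add_right hj.2 w)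
    push_cast
    linarith [show σ.c.t1 = P.c.t1 from rfl]

end Vale.Agent.P354CN
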