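import Vale.Agent.P354RN.Defs
import Vale.Agent.P354XO.Fam

/-!
The domain of the transverse frame is a cone, and eta is homogeneous up to constants.
-/

open scoped ContDiff
open Set Filter Topology Complex

noncomputable section

namespace Vale.Agent.P354CN

open Vale.Agent.P354XG Vale.Agent.P354XG.Geo Vale.Agent.P354XD Vale.Agent.P354XR
open Vale.Agent.P354XO (sc sc_ap ev_euler pj_sc sc_inv)
open Vale.Agent.P354XE (Tw)
open Vale.Agent.P354YA
open Vale.Agent.P354Z (f4)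

section alg
variable {A : Type} [CommRing A] [Algebra ℂ A] {S : Geo A}

/-- The frame with rescaled vectors. -/
def sf (F : Fr A) (a b q p : A) : Fr A := ⟨a • F.l, b • F.n, q • F.m, p • F.mb⟩

theorem Wr_smul (R : Fin 4 → Fin 4 → Fin 4 → Fin 4 → A) (a b c d : A) (X Y Z U : Vec A) :
    Wr S R (a • X) (b • Y) (c • Z) (d • U) = a * b * c * d * Wr S R X Y Z U := by
  have e : (fun f => ∑ i, ∑ j, ∑ k, R i j k f * (a • X) i * (b • Y) j * (c • Z) k) =
      (a * b * c) • fun f => ∑ i, ∑ j, ∑ k, R i j k f * X i * Y j * Z k := by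
    funext f
    simp only [Pi.smul_apply, smul_eq_mul, Finset.mul_sum]
    exact Finset.sum_congr rfl fun _ _ => Finset.sum_congr rfl fun _ _ =>
      Finset.sum_congr rfl fun _ _ => by ring
  rw [Wr, e, dot_smul_left, dot_smul_right, Wr]
  ring

variable {O : Ops S.c} {R : Fin 4 → Fin 4 → Fin 4 → Fin 4 → A} {F : Fr A} {a b q p : A}
  (h1 : a * b = 1) (h2 : q * p = 1)

include h1 in
theorem sf_1 : S.dot (sf F a b q p).l (sf F a b q p).n = S.dot F.l F.n ∧
    S.dot (sf F a b q p).l (sf F a b q p).l * S.dot (sf F a b q p).n (sf F a b q p).n =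
      S.dot F.l F.l * S.dot F.n F.n := by
  simp only [sf, dot_smul_left, dot_smul_right]
  exact ⟨by linear_combination S.dot F.l F.n * h1,
    by linear_combination (a * b + 1) * S.dot F.l F.l * S.dot F.n F.n * h1⟩

include h2 in
theorem sf_2 : S.dot (sf F a b q p).m (sf F a b q p).mb = S.dot F.m F.mb ∧
    S.dot (sf F a b q p).m (sf F a b q p).m * S.dot (sf F a b q p).mb (sf F a b q p).mb =
      S.dot F.m F.m * S.dot F.mb F.mb := by
  simp only [sf, dot_smul_left, dot_smul_right]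
  exact ⟨by linear_combination S.dot F.m F.mb * h2,
    by linear_combination (q * p + 1) * S.dot F.m F.m * S.dot F.mb F.mb * h2⟩

include h1 in
theorem sf_g1 (s u i : A) : (sf F a b q p).g1 S s u i = sf (F.g1 S s u i) a b q p := by
  have el : (sf F a b q p).gl S u = a • F.gl S u := by
    simp only [Fr.gl, sf, dot_smul_left, dot_smul_right]
    match_scalars
    · ring
    · linear_combination a * S.dot F.l F.l * u * h1
  have en : (sf F a b q p).gn S s u i = b • F.gn S s u i := by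
    rw [Fr.gn, (sf_1 h1).1]
    simp only [Fr.gn, sf, dot_smul_left, dot_smul_right]
    match_scalars
    · ring
    · linear_combination hf A * (s - S.dot F.l F.n) * i ^ 2 * b * S.dot F.n F.n * u * h1
  rw [Fr.g1, el, en, Fr.g1]
  generalize F.gl S u = L, F.gn S s u i = N
  simp only [sf, dot_smul_left, dot_smul_right, Fr.mk.injEq, true_and]
  constructor <;> match_scalars
  · ring
  · linear_combination q * S.dot F.m N * h1
  · linear_combination q * S.dot F.m L * h1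
  · ring
  · linear_combination p * S.dot F.mb N * h1
  · linear_combination p * S.dot F.mb L * h1

include h2 in
theorem sf_g2 (u k : A) : (sf F a b q p).g2 S u k = sf (F.g2 S u k) a b q p := by
  simp only [Fr.g2, sf, dot_smul_left, dot_smul_right, Fr.mk.injEq, true_and]
  constructor <;> match_scalars
  · ring
  · linear_combination -(k * q * S.dot F.m F.m * u) * h2
  · ring
  · linear_combination -(k * p * S.dot F.mb F.mb * u) * h2

include h1 h2 in
theorem sf_ok (k : F.Ok O R) : (sf F a b q p).Ok O R := by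
  have s1 : (sf F a b q p).s1 O = F.s1 O := by rw [Fr.s1, (sf_1 h1).1, (sf_1 h1).2, Fr.s1]
  have e1 : (sf F a b q p).f1 O = sf (F.f1 O) a b q p := by
    rw [Fr.f1, s1, (sf_1 h1).1, sf_g1 h1, Fr.f1]
  have s2 : ∀ F : Fr A, (sf F a b q p).s2 O = F.s2 O := fun F => by
    rw [Fr.s2, (sf_2 h2).1, (sf_2 h2).2, Fr.s2]
  have e2 : (sf F a b q p).gsF O = sf (F.gsF O) a b q p := by
    rw [Fr.gsF, e1, Fr.f2, s2, (sf_2 h2).1, sf_g2 h2, Fr.gsF, Fr.f2]
  obtain ⟨k1, k2, k3⟩ := k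
  refine ⟨⟨?_, ?_, ?_⟩, ?_, ?_⟩
  · rw [(sf_1 h1).1, (sf_1 h1).2]; exact k1.s
  · rw [s1, (sf_1 h1).1]; exact k1.u
  · rw [s1]; exact k1.i
  · rw [e1]
    refine ⟨?_, ?_, ?_, ?_⟩
    · rw [(sf_2 h2).1, (sf_2 h2).2]; exact k2.s
    · rw [s2, (sf_2 h2).1]; exact k2.u
    · rw [s2]; exact k2.i
    · rw [s2, (sf_2 h2).1]; exact k2.k
  · rw [e2]
    generalize F.gsF O = E at k3
    have t : a * b * (q * p) = 1 := by rw [h1, h2, one_mul]
    have x0 : Fr.x0 S R (sf E a b q p) = (a * q) ^ 2 * Fr.x0 S R E := by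
      simp only [Fr.x0, sf, Wr_smul]; ring
    have x1 : Fr.x1 S R (sf E a b q p) = a * q * Fr.x1 S R E := by
      simp only [Fr.x1, sf, Wr_smul]
      linear_combination -(a * q * Wr S R E.l E.n E.l E.m) * h1
    have x2 : Fr.x2 S R (sf E a b q p) = Fr.x2 S R E := by
      simp only [Fr.x2, sf, Wr_smul]
      linear_combination Wr S R E.n E.mb E.l E.m * t
    have x3 : Fr.x3 S R (sf E a b q p) = b * p * Fr.x3 S R E := by
      simp only [Fr.x3, sf, Wr_smul]
      linear_combination -(b * p * Wr S R E.n E.l E.n E.mb) * h1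
    have x4 : Fr.x4 S R (sf E a b q p) = (b * p) ^ 2 * Fr.x4 S R E := by
      simp only [Fr.x4, sf, Wr_smul]; ring
    have iu : Fr.iu S R (sf E a b q p) = Fr.iu S R E := by
      rw [Fr.iu, x0, x4, x2, Fr.iu]
      linear_combination (a * b * (q * p) + 1) * Fr.x0 S R E * Fr.x4 S R E *
        Ring.inverse (Fr.x2 S R E) ^ 2 * t
    have iv : Fr.iv S R (sf E a b q p) = Fr.iv S R E := by
      rw [Fr.iv, x1, x3, x2, Fr.iv]
      linear_combination Fr.x1 S R E * Fr.x3 S R E * Ring.inverse (Fr.x2 S R E) ^ 2 * t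
    have iw : Fr.iw S R (sf E a b q p) = Fr.iw S R E := by
      rw [Fr.iw, x0, x1, x3, x4, x2, Fr.iw]
      linear_combination (a * b * (q * p) + 1) * (Fr.x1 S R E ^ 2 * Fr.x4 S R E +
        Fr.x3 S R E ^ 2 * Fr.x0 S R E) * Ring.inverse (Fr.x2 S R E) ^ 3 * t
    exact ⟨x2 ▸ k3.u, by rw [iu, iv, iw]; exact k3.t⟩

end alg

/-- The Euler equations give the homogeneity on a cone. -/
theorem euler {O : Set E6} (c : ∀ x ∈ O, ∀ z : ℂ, z ≠ 0 → sc z x ∈ O) {f : E6 → ℂ} {m n : ℂ}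
    (df : ∀ x ∈ O, DifferentiableAt ℝ f x)
    (e : ∀ x ∈ O, ∀ w : ℂ, fderiv ℝ f x (0, 0, w • x.2.2) = (m * w + n * starRingEnd ℂ w) * f x)
    {x : E6} (hx : x ∈ O) (w : ℂ) :
    f (sc (exp w) x) = exp (m * w + n * starRingEnd ℂ w) * f x := by
  obtain ⟨k, hk⟩ : ∃ k, k = m * w + n * starRingEnd ℂ w := ⟨_, rfl⟩
  have d1 : ∀ (u : ℂ) (s : ℝ), HasDerivAt (fun s : ℝ => exp (s * u)) (exp (s * u) * u) s :=
    fun u s => by simpa using ((ofRealCLM.hasDerivAt (x := s)).mul_const u).cexp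
  have d2 : ∀ s : ℝ, HasDerivAt (fun s : ℝ => exp (s * -k) * f (sc (exp (s * w)) x)) 0 s := by
    intro s
    have o := c x hx _ (exp_ne_zero (s * w))
    have d3 : HasDerivAt (fun s : ℝ => sc (exp (s * w)) x)
        (0, 0, w • (sc (exp (s * w)) x).2.2) s := by
      have := (hasDerivAt_const s x.1).prodMk ((hasDerivAt_const s x.2.1).prodMk
        ((d1 w s).smul_const x.2.2))
      rwa [mul_comm, mul_smul] at this
    have := (d1 (-k) s).mul ((df _ o).hasFDerivAt.comp_hasDerivAt s d3)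
    rw [e _ o, ← hk] at this
    exact this.congr_deriv (by simp only [Function.comp]; ring)
  have := is_const_of_deriv_eq_zero (fun s => (d2 s).differentiableAt) (fun s => (d2 s).deriv) 1 0
  simp only [ofReal_one, one_mul, ofReal_zero, zero_mul, exp_zero] at this
  rw [← hk, show f x = f (sc 1 x) by simp [sc_ap], ← this, ← mul_assoc, ← exp_add, add_neg_cancel,
    exp_zero, one_mul]

/-- The germ u has the weights m, n. -/
def Wg {G : Filter (Tw × E6)} [Loc G] (u : Sm G) (m n : ℂ) : Prop :=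
  (hp G).H u = algebraMap ℂ _ m * u ∧ (hp G).B u = algebraMap ℂ _ n * u

theorem hom {K : Tw → Set E6} (c : ∀ g, ∀ x ∈ K g, ∀ z : ℂ, z ≠ 0 → sc z x ∈ K g)
    {u : Sm (nb ⊤ K)} {m n : ℂ} (h : Wg u m n) {g : Tw} {x : E6} (hx : x ∈ K g) (w : ℂ) :
    rep u (g, sc (exp w) x) = exp (m * w + n * starRingEnd ℂ w) * rep u (g, x) :=
  euler (f := sl (rep u) g) (c g) (eventually_top.1 (ev_nb_on (rep_sm u).diff) g)
    (eventually_top.1 (ev_nb_on (ev_euler h.1 h.2)) g) hx w

theorem K0_sc (g : Tw) (x : E6) (hx : x ∈ K0 g) (z : ℂ) (hz : z ≠ 0) : sc z x ∈ K0 g :=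
  ⟨⟨hx.1.1, smul_ne_zero hz hx.1.2⟩, (pj_sc hz x).symm ▸ hx.2⟩

theorem ok_sc (M a : ℝ) {g : Tw} {y : E6} (h : y ∈ K0 g) (w : ℂ)
    (k : (vF M a (g, y)).Ok (S := pt (vg (g, y))) opsC (vR (g, y))) :
    (vF M a (g, sc (exp w) y)).Ok (S := pt (vg (g, sc (exp w) y))) opsC
      (vR (g, sc (exp w) y)) := by
  have o : Pos G0 := G0_ev.mono fun _ k => k.1
  have s : (sG G0 id).Is := geo_is o.off _ (G0_ev.mono fun _ k => k.2)
  have r0 := (frK_wn (hp_is o.off) (pm_is o (fun _ => M) fun _ => a) (sG G0 id).Γ).rw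
  have r : (fK G0 M a).RW (sG G0 id) :=
    ⟨r0.c_l, r0.c_n, r0.c_m, r0.H_l, r0.H_n, r0.H_m, r0.Hb_m⟩
  have z : ∀ u : Sm G0, (sG G0 id).H u = 0 → (sG G0 id).Hb u = 0 →
      rep u (g, sc (exp w) y) = rep u (g, y) := fun u e1 e2 => by
    simpa using hom K0_sc (u := u) (m := 0) (n := 0)
      ⟨e1.trans (by simp), e2.trans (by simp)⟩ h w
  have e1 : vg (g, sc (exp w) y) = vg (g, y) :=
    funext₂ fun b c => z _ (s.H_g b c) (s.Hb_g b c)
  have e2 : vR (g, sc (exp w) y) = vR (g, y) :=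
    funext₂ fun b c => funext₂ fun d e => z _ (s.vertH.R b c d e) (s.vertHb.R b c d e)
  have v : ∀ (X : Vec (Sm G0)) (m n : ℂ), dv (sG G0 id).H X = algebraMap ℂ (Sm G0) m • X →
      dv (sG G0 id).Hb X = algebraMap ℂ (Sm G0) n • X →
      (fun d => rep (X d) (g, sc (exp w) y)) =
        exp (m * w + n * starRingEnd ℂ w) • fun d => rep (X d) (g, y) := fun X m n e1 e2 =>
    funext fun d => hom K0_sc ⟨congrFun e1 d, congrFun e2 d⟩ h w
  have e3 : vF M a (g, sc (exp w) y) = sf (vF M a (g, y)) (exp (1 * w + 1 * starRingEnd ℂ w))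
      (exp (-1 * w + -1 * starRingEnd ℂ w)) (exp (1 * w + -1 * starRingEnd ℂ w))
      (exp (-1 * w + 1 * starRingEnd ℂ w)) := by
    simp only [vF, sf, Fr.mk.injEq]
    exact ⟨v _ _ _ (by simp [r.H_l]) (by simp [r.Hb_l s]), v _ _ _ (by simp [r.H_n])
      (by simp [r.Hb_n s]), v _ _ _ (by simp [r.H_m]) (by simp [r.Hb_m]),
      v _ _ _ (by simp [r.H_mb s]) (by simp [r.Hb_mb s])⟩
  rw [e1, e2, e3]
  exact sf_ok (by rw [← exp_add]; ring_nf; exact exp_zero)
    (by rw [← exp_add]; ring_nf; exact exp_zero) k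

theorem KU_sc (M a : ℝ) (g : Tw) (x : E6) (hx : x ∈ KU M a g) (z : ℂ) (hz : z ≠ 0) :
    sc z x ∈ KU M a g := by
  have t : Tendsto (sc z⁻¹) (𝓝 (sc z x)) (𝓝 x) := by
    simpa only [P354XO.inv_sc hz] using (sc z⁻¹).continuous.tendsto (sc z x)
  filter_upwards [t.eventually hx] with y h
  have k := ok_sc M a h.1 (log z) h.2
  have k0 := K0_sc g _ h.1 z hz
  rw [exp_log hz] at k
  rw [sc_inv hz] at k k0
  exact ⟨k0, k⟩

theorem wg_f4 {M a : ℝ} {u : Sm (GU M a)} {m n : ℝ} (h : Wg u m n) (i : Fin 4) :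
    ∃ m' n' : ℝ, |m' + n'| ≤ |m + n| + 2 ∧ Wg (f4 (gT (GU M a) M a id) i u) m' n' := by
  have s : (gT (GU M a) M a id).Is := gT_is GU_ev
  have hH : (gT (GU M a) M a id).H u = algebraMap ℂ _ m * u := h.1
  have hB : (gT (GU M a) M a id).Hb u = algebraMap ℂ _ n * u := h.2
  have b := abs_nonneg (m + n)
  have e : ∀ (D : Der (Sm (GU M a))) (c d : ℝ) (x : Sm (GU M a)), x = algebraMap ℂ _ d * D u →
      D (algebraMap ℂ _ c * u) + x = algebraMap ℂ _ ((c + d : ℝ) : ℂ) * D u := fun D c d x k => by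
    rw [D_mul, D_alg, k, ofReal_add, map_add]; ring
  fin_cases i
  · exact ⟨m + 1, n + 1, by rw [abs_le]; constructor <;> cases abs_cases (m + n) <;> linarith,
      (s.H_th u).trans (hH ▸ e _ _ _ _ (by simp)), (s.Hb_th u).trans (hB ▸ e _ _ _ _ (by simp))⟩
  · exact ⟨m + -1, n + -1, by rw [abs_le]; constructor <;> cases abs_cases (m + n) <;> linarith,
      (s.H_tp u).trans ((sub_eq_add_neg _ _).trans (hH ▸ e _ _ _ _ (by simp))),
      (s.Hb_tp u).trans ((sub_eq_add_neg _ _).trans (hB ▸ e _ _ _ _ (by simp)))⟩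
  · exact ⟨m + 1, n + -1, by rw [abs_le]; constructor <;> cases abs_cases (m + n) <;> linarith,
      (s.H_et u).trans (hH ▸ e _ _ _ _ (by simp)),
      (s.Hb_et u).trans ((sub_eq_add_neg _ _).trans (hB ▸ e _ _ _ _ (by simp)))⟩
  · exact ⟨m + -1, n + 1, by rw [abs_le]; constructor <;> cases abs_cases (m + n) <;> linarith,
      (s.H_ep u).trans ((sub_eq_add_neg _ _).trans (hH ▸ e _ _ _ _ (by simp))),
      (s.Hb_ep u).trans (hB ▸ e _ _ _ _ (by simp))⟩

theorem qq_sc {M a L : ℝ} {g : Tw} {x : E6} (hx : x ∈ KU M a g) {w : ℂ} (hw : |w.re| ≤ L) (N : ℕ) :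
    ∀ (u : Sm (GU M a)) (m n k : ℝ), Wg u m n → |m + n| ≤ k →
      qq (f4 (gT (GU M a) M a id)) (g, sc (exp w) x) N u ≤
        Real.exp (2 * (k + 2 * N) * L) * qq (f4 (gT (GU M a) M a id)) (g, x) N u := by
  have L0 : 0 ≤ L := (abs_nonneg _).trans hw
  induction N with
  | zero =>
    intro u m n k h hk
    rw [qq, qq, hom (KU_sc M a) h hx w, norm_mul, mul_pow, norm_exp, ← Real.exp_nat_mul]
    refine mul_le_mul_of_nonneg_right (Real.exp_le_exp.2 ?_) (sq_nonneg _)
    have e : (m * w + n * starRingEnd ℂ w).re = (m + n) * w.re := by simp; ring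
    have := mul_le_mul hk hw (abs_nonneg _) ((abs_nonneg _).trans hk)
    rw [← abs_mul] at this
    rw [e]
    push_cast
    linarith [le_abs_self ((m + n) * w.re)]
  | succ N ih =>
    intro u m n k h hk
    rw [qq, qq, mul_add (Real.exp _), Finset.mul_sum]
    refine add_le_add ((ih u m n (k + 2) h (by linarith)).trans_eq ?_)
      (Finset.sum_le_sum fun i _ => ?_)
    · push_cast; ring_nf
    · obtain ⟨m', n', k1, k2⟩ := wg_f4 h i
      refine (ih _ m' n' (k + 2) k2 (by linarith)).trans_eq ?_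
      push_cast; ring_nf

theorem kcn : P354RN.KCN := by
  refine ⟨fun M a g x z hz hx => KU_sc M a g x hx z hz, fun N ρ =>
    ⟨Real.exp (2 * (4 + 2 * N) * Real.log ρ), fun M a g x z hz h1 h2 hx => ?_⟩⟩
  have p := norm_pos_iff.2 hz
  have hw : |(log z).re| ≤ Real.log ρ := by
    rw [log_re, abs_le, neg_le, ← Real.log_inv]
    exact ⟨Real.log_le_log (inv_pos.2 p) h2, Real.log_le_log p h1⟩
  have s : (gT (GU M a) M a id).Is := gT_is GU_ev
  have b4 : (gT (GU M a) M a id).Hb (gT (GU M a) M a id).P4 = 0 := s.Hb_P4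
  have k0 := qq_sc hx hw N (gT (GU M a) M a id).P0 4 0 4
    ⟨s.H_P0.trans (by simp [map_ofNat]), s.Hb_P0.trans (by simp)⟩ (by norm_num)
  have k4 := qq_sc hx hw N (gT (GU M a) M a id).P4 (-4) 0 4
    ⟨s.H_P4.trans (by simp [map_ofNat]), b4.trans (by simp)⟩ (by norm_num)
  rw [exp_log hz] at k0 k4
  exact (add_le_add k0 k4).trans_eq (mul_add _ _ _).symm

end Vale.Agent.P354CN
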